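import Mathlib

/-!
The height representation of the self-dual Ashkin-Teller model in the domain enclosed by a lattice
polygon, and the convergence of its height function to the Gaussian free field (definitions).
-/

namespace Vale.Agent.P145.H

open Finset Filter Topology MeasureTheory ProbabilityTheory

/-- `Sum.inl v` is the vertex `v` of `ℤ²`, and `Sum.inr f` is the face (unit square) of `ℤ²` with
bottom-left corner `f`. A spin configuration `(τ, τ†)` is given by the set `S` of the sites where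
the spin is `-1`. -/
abbrev Site := (ℤ × ℤ) ⊕ (ℤ × ℤ)

/-- The spin of the configuration `S` at the site `x`: `τ(v)` for `x = Sum.inl v` and `τ†(f)` for
`x = Sum.inr f`. -/
noncomputable def sp (S : Finset Site) (x : Site) : ℝ := if x ∈ S then -1 else 1

/-- The weight of an edge `uv` separating the faces `f, g`: `0` if
`(τ(u) - τ(v)) (τ†(f) - τ†(g)) ≠ 0`, and otherwise `t` to the number of pairs of different spins
among `{τ(u), τ(v)}` and `{τ†(f), τ†(g)}`. -/
noncomputable def ew (t : ℝ) (S : Finset Site) (u v f g : ℤ × ℤ) : ℝ :=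
  (if sp S (.inl u) = sp S (.inl v) then 1 else t) * (if sp S (.inr f) = sp S (.inr g) then 1 else t) *
    if (sp S (.inl u) - sp S (.inl v)) * (sp S (.inr f) - sp S (.inr g)) = 0 then 1 else 0

/-- The weight `t ^ (N(τ) + N(τ†))` of a configuration (`0` if the constraint is violated): the
product over all interior edges (both sides in the set `F` of the enclosed faces). The horizontal
edge from `e` to `e + (1, 0)` separates the faces `e` and `e - (0, 1)`, the vertical edge from `e`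
to `e + (0, 1)` the faces `e` and `e - (1, 0)`. -/
noncomputable def wt (t : ℝ) (F : Finset (ℤ × ℤ)) (S : Finset Site) : ℝ :=
  (∏ e ∈ F with e - (0, 1) ∈ F, ew t S e (e + (1, 0)) e (e - (0, 1))) *
    ∏ e ∈ F with e - (1, 0) ∈ F, ew t S e (e + (0, 1)) e (e - (1, 0))

/-- A simple closed lattice polygon: a closed path `p 0, p 1, …, p (n - 1), p 0` of `ℤ²` with steps
of length one and without repeated vertices. -/
def IsPolygon {n : ℕ} (p : ZMod n → ℤ × ℤ) : Prop :=
  3 < n ∧ Function.Injective p ∧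
    ∀ i, p (i + 1) - p i ∈ ({(1, 0), (-1, 0), (0, 1), (0, -1)} : Set (ℤ × ℤ))

/-- The edge between the lattice points `a` and `b` is an edge of the polygon `p`. -/
def IsEdge {n : ℕ} (p : ZMod n → ℤ × ℤ) (a b : ℤ × ℤ) : Prop :=
  ∃ i, (p i = a ∧ p (i + 1) = b) ∨ (p i = b ∧ p (i + 1) = a)

/-- The finite set `F` of faces is the set of the faces enclosed by the polygon `p`: the edges of
`p` are exactly the edges of the lattice with exactly one of their two sides in `F`. -/
def Encloses {n : ℕ} (p : ZMod n → ℤ × ℤ) (F : Finset (ℤ × ℤ)) : Prop :=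
  ∀ e : ℤ × ℤ, (IsEdge p e (e + (1, 0)) ↔ ¬ (e ∈ F ↔ e - (0, 1) ∈ F)) ∧
    (IsEdge p e (e + (0, 1)) ↔ ¬ (e ∈ F ↔ e - (1, 0) ∈ F))

/-- The vertices of the graph of the polygon: the corners of the enclosed faces. -/
def verts (F : Finset (ℤ × ℤ)) : Finset (ℤ × ℤ) :=
  F ∪ F.image (· + (1, 0)) ∪ F.image (· + (0, 1)) ∪ F.image (· + (1, 1))

/-- The configurations: the spins `-1` are at enclosed faces and at vertices of the graph which are
not on the polygon. -/
noncomputable def confs {n : ℕ} (p : ZMod n → ℤ × ℤ) (F : Finset (ℤ × ℤ)) :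
    Finset (Finset Site) :=
  by classical exact (((verts F).filter fun v => ∀ i, p i ≠ v).disjSum F).powerset

/-- `H` is the height function of the configuration `S`: it is `0` on the polygon, and
`H(f) - H(v) = τ(v) τ†(f) / 2` whenever the vertex `v` is a corner of the enclosed face `f`. -/
def IsHt {n : ℕ} (p : ZMod n → ℤ × ℤ) (F : Finset (ℤ × ℤ)) (S : Finset Site) (H : Site → ℝ) :
    Prop :=
  (∀ i, H (.inl (p i)) = 0) ∧ ∀ f ∈ F, ∀ a ∈ ({(0, 0), (1, 0), (0, 1), (1, 1)} : Set (ℤ × ℤ)),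
    H (.inr f) - H (.inl (f + a)) = 1 / 2 * sp S (.inl (f + a)) * sp S (.inr f)

/-- `H_δ(φ) = δ² ∑_v H(v) φ(δ v)`, the sum being over the vertices of the graph. -/
noncomputable def fld (F : Finset (ℤ × ℤ)) (H : Site → ℝ) (δ : ℝ) (φ : ℝ × ℝ → ℝ) : ℝ :=
  δ ^ 2 * ∑ v ∈ verts F, H (.inl v) * φ (δ * v.1, δ * v.2)

/-- A bounded Jordan domain: the image of the open unit disc under a homeomorphism of the plane
(by the theorem of Schoenflies these are exactly the interiors of Jordan curves). -/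
def JordanDomain (D : Set (ℝ × ℝ)) : Prop :=
  ∃ Φ : (ℝ × ℝ) ≃ₜ (ℝ × ℝ), D = Φ '' {z | z.1 ^ 2 + z.2 ^ 2 < 1}

/-- Smooth functions with compact support contained in `D`. -/
def TestOn (D : Set (ℝ × ℝ)) (φ : ℝ × ℝ → ℝ) : Prop :=
  ContDiff ℝ ((⊤ : ℕ∞) : WithTop ℕ∞) φ ∧ HasCompactSupport φ ∧ tsupport φ ⊆ D

/-- `⟨φ, (-Δ_D)⁻¹ φ⟩ = sup_ψ (2 ∫ φ ψ - ∫ |∇ψ|²)`, `ψ` smooth with compact support in `D`. -/
noncomputable def V (D : Set (ℝ × ℝ)) (φ : ℝ × ℝ → ℝ) : ℝ :=
  ⨆ ψ : {ψ : ℝ × ℝ → ℝ // TestOn D ψ},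
    (2 * ∫ z, φ z * ψ.1 z) - ∫ z, (fderiv ℝ ψ.1 z (1, 0) ^ 2 + fderiv ℝ ψ.1 z (0, 1) ^ 2)

/-- Lattice polygons `p n` of mesh `δ n → 0` approximating the domain `D`: the vertices of the
polygons are eventually within any given distance of `D`, and every compact subset of `D` is
eventually enclosed. (The first condition follows from the uniform convergence of the boundary
curves.) -/
def Approx (D : Set (ℝ × ℝ)) (δ : ℕ → ℝ) (N : ℕ → ℕ) (p : ∀ n, ZMod (N n) → ℤ × ℤ)
    (F : ℕ → Finset (ℤ × ℤ)) : Prop :=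
  (∀ n, 0 < δ n ∧ IsPolygon (p n) ∧ Encloses (p n) (F n)) ∧ Tendsto δ atTop (𝓝 0) ∧
  (∀ ε > 0, ∀ᶠ n in atTop, ∀ i, ∃ z ∈ D, dist (δ n * (p n i).1, δ n * (p n i).2) z < ε) ∧
  ∀ K ⊆ D, IsCompact K → ∀ᶠ n in atTop, ∀ z ∈ K, (⌊z.1 / δ n⌋, ⌊z.2 / δ n⌋) ∈ F n

/-- Convergence in law of the height function, tested against finitely many test functions, to the
centred Gaussian vector whose covariance is `s²` times that of the Gaussian free field with
covariance `2π (-Δ_D)⁻¹`: convergence of the expectations of all bounded continuous functions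
`G`. Configurations have probabilities proportional to their weights; each configuration of
positive weight has a height function. -/
def Conv (t s : ℝ) (D : Set (ℝ × ℝ)) : Prop :=
  ∀ (δ : ℕ → ℝ) (N : ℕ → ℕ) (p : ∀ n, ZMod (N n) → ℤ × ℤ) (F : ℕ → Finset (ℤ × ℤ)),
    Approx D δ N p F →
    (∀ n, ∀ S ∈ confs (p n) (F n), 0 ≤ wt t (F n) S ∧
      (wt t (F n) S ≠ 0 → ∃ H, IsHt (p n) (F n) S H)) ∧
    (∀ n, 0 < ∑ S ∈ confs (p n) (F n), wt t (F n) S) ∧
    ∀ H : ℕ → Finset Site → Site → ℝ,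
      (∀ n, ∀ S ∈ confs (p n) (F n), wt t (F n) S ≠ 0 → IsHt (p n) (F n) S (H n S)) →
      ∀ (k : ℕ) (φ : Fin k → ℝ × ℝ → ℝ), (∀ j, TestOn D (φ j)) →
        ∃ C : Matrix (Fin k) (Fin k) ℝ, C.PosSemidef ∧
        (∀ i j, C i j = s ^ 2 * (2 * Real.pi *
          ((V D (fun z => φ i z + φ j z) - V D (fun z => φ i z - φ j z)) / 4))) ∧
        ∀ G : BoundedContinuousFunction (EuclideanSpace ℝ (Fin k)) ℝ, Tendsto (fun n =>
          (∑ S ∈ confs (p n) (F n), wt t (F n) S *
            G (WithLp.toLp 2 fun j => fld (F n) (H n S) (δ n) (φ j))) /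
              ∑ S ∈ confs (p n) (F n), wt t (F n) S)
          atTop (𝓝 (∫ x, G x ∂multivariateGaussian 0 C))

end Vale.Agent.P145.H
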